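import Vale.Agent.P011.D4X.H547.PartB
import Vale.Agent.P011N.D1.D4X.Defs
import Vale.Agent.P011N.D1.D4X.H63.PartA
import Vale.Agent.P011N.D1.D4X.H691.Na

/-!
Version for big subgroups of `P011.D4X.H547.PartB`.
-/

open NumberField Topology Filter

open scoped ComplexConjugate

set_option linter.unusedSectionVars false

namespace Vale.Agent.P011.D4X

open Vale.Agent.P011.MPQ Vale.Agent.P011.D4 Vale.Agent.P011.D4.Oct Vale.Agent.P011.E6

section core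

variable {k L E E1 O : Type} [Field k] [Field L] [Field E] [Field E1] [Field O] [Algebra k L]
  [Algebra k E] [Algebra L E] [Algebra k E1] [Algebra L E1] [Algebra k O] [Algebra L O]
  [Algebra E O] [Algebra E1 O] [IsScalarTower k L E] [IsScalarTower k L E1]
  [IsScalarTower k L O]
  [IsScalarTower k E O] [IsScalarTower k E1 O] [IsScalarTower L E O] [IsScalarTower L E1 O]
  [NeZero (2 : k)] [NeZero (2 : E)] [NeZero (2 : E1)]
  {a b c a1 b1 c1 : kˣ} {q : Lˣ}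
  {ρ σ : E ≃ₐ[k] E} {ρL : L ≃ₐ[k] L} {α : E} {D : k} {w0 : Qt a b}
  {w : Qt (up L a) (q * up L b)} {ρ1 σ1 : E1 ≃ₐ[k] E1} {α1 : E1} {ρ' σ' τ' : O ≃ₐ[k] O}
  {q1 : Lˣ} {u : OctL O a1 b1 c1 ≃ₗ[O] OctL O a b c}
  {φ : AT ρ σ α a b c q ≃* AT ρ1 σ1 α1 a1 b1 c1 q1}

/-- The parts, from one conjugation in the new model. -/
theorem Part.core1B (X : KCX ρ σ ρL α D w0 w ρ1 σ1 α1 ρ' σ' τ' q1 u φ)
    (hN : ∀ {b' c' : kˣ} {j l : Oct a1 b1 c1} (h : Trip a1 b' c' gi j l)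
      {z : AT ρ1 σ1 α1 a1 b1 c1 q1}, z ∈ stab ρ1 σ1 α1 q1 h → kap z = 1 →
      IsNB ρ1 σ1 α1 a1 b1 c1 q1 z)
    {b' c' : kˣ} {j l : Oct a b c} (h : Trip a b' c' gi j l)
    {y' : AT ρ1 σ1 α1 a1 b1 c1 q1} (hy' : y' ∈ stabs ρ1 σ1 α1 a1 b1 c1 q1) {b2 c2 : kˣ}
    {j1 l1 : Oct a1 b1 c1} {h1 : Trip a1 b2 c2 gi j1 l1}
    (hy1 : y' * φ (tAT ρ σ α q h) * y'⁻¹ = tAT ρ1 σ1 α1 q1 h1) {x y : L} (κ : Lˣ)
    (hκ : (κ : L) = x ^ 2 - algebraMap k L D * y ^ 2) :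
    ∃ w w' : AT ρ σ α a b c q, w ∈ stab0 ρ σ α a b c q ∧ w' ∈ stab ρ σ α q h ∧
      IsKap ρ w.1 κ ∧ IsKap ρ w'.1 κ ∧ IsNB ρ σ α a b c q (w * w'⁻¹) := by
  have he : (algebraMap L E1 x + algebraMap L E1 y * α1) *
      σ1 (algebraMap L E1 x + algebraMap L E1 y * α1) = algebraMap L E1 (κ : L) := by
    rw [map_add, map_mul, X.H1.σL, X.H1.σL, X.H1.σα, hκ]
    simp only [map_sub, map_mul, map_pow]
    rw [← IsScalarTower.algebraMap_apply, ← X.T.α12]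
    ring
  have he0 : algebraMap L E1 x + algebraMap L E1 y * α1 ≠ 0 := by
    intro h0
    rw [h0, zero_mul] at he
    exact κ.ne_zero ((map_eq_zero (algebraMap L E1)).1 he.symm)
  exact Part.of_isoB X.H1 X.kp X.st0 hN h hy' h1 (fun z hz => z5_stab hy1 hz) he0 he.symm

end core

section triv

variable {k L E : Type} [Field k] [Field L] [Field E]
  [Algebra k L] [Algebra k E] [Algebra L E]
  [IsScalarTower k L E] [NeZero (2 : E)] {ρ σ : E ≃ₐ[k] E} {ρL : L ≃ₐ[k] L} {α : E}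
  {a b c : kˣ} {q : Lˣ} (H : Hy ρ σ ρL α a b c q)

include H

/-- The case `D ∈ a k²`. -/
theorem Part.trivB {b' c' : kˣ} {j l : Oct a b c} (h : Trip a b' c' gi j l) {r : k} {x y : L}
    (κ : Lˣ) (hκ : (κ : L) = x ^ 2 - algebraMap k L (a * r ^ 2) * y ^ 2) :
    ∃ w w' : AT ρ σ α a b c q, w ∈ stab0 ρ σ α a b c q ∧ w' ∈ stab ρ σ α q h ∧
      IsKap ρ w.1 κ ∧ IsKap ρ w'.1 κ ∧ IsNB ρ σ α a b c q (w * w'⁻¹) := by
  obtain ⟨y2, hy2⟩ : ∃ y2 : L, (κ : L) = x ^ 2 - algebraMap k L a * y2 ^ 2 :=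
    ⟨algebraMap k L r * y, by rw [hκ, map_mul, map_pow]; ring⟩
  have he : (algebraMap L E x + algebraMap L E y2 * α) *
      σ (algebraMap L E x + algebraMap L E y2 * α) = algebraMap L E (κ : L) := by
    rw [map_add, map_mul, H.σL, H.σL, H.σα, hy2]
    simp only [map_sub, map_mul, map_pow]
    rw [← IsScalarTower.algebraMap_apply, ← H.α2]
    ring
  have he0 : algebraMap L E x + algebraMap L E y2 * α ≠ 0 := by
    intro h0
    rw [h0, zero_mul] at he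
    exact κ.ne_zero ((map_eq_zero (algebraMap L E)).1 he.symm)
  obtain ⟨z, κ', hz1, hz2, hz3⟩ := exists_tor H _ he0
  have e1 : κ' = κ := by
    apply Units.ext
    apply (algebraMap L E).injective
    rw [hz2, he]
  rw [e1] at hz1
  refine ⟨z, z, Part.mem_stab0 trip_std (hz3 trip_std), hz3 h, hz1, hz1, ?_⟩
  rw [mul_inv_cancel]
  exact H.NAB.one_mem

variable [NumberField k] [NumberField L]

end triv

end Vale.Agent.P011.D4X
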