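import Vale.Agent.P011.D4X.H547.Part
import Vale.Agent.P011N.D1.D4X.Defs
import Vale.Agent.P011N.D1.D4X.H370.TripConj
import Vale.Agent.P011N.D1.D4X.H547.PartA
import Vale.Agent.P011N.D1.D4X.H547.PartB
import Vale.Agent.P011N.D1.D4X.H691.Na
import Vale.Agent.P011N.D1.D4X.H691.StabN

/-!
Version for big subgroups of `P011.D4X.H547.Part`.
-/

open NumberField Topology Filter

set_option linter.unusedSectionVars false

namespace Vale.Agent.P011.D4X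

open Vale.Agent.P011.MPQ Vale.Agent.P011.D4 Vale.Agent.P011.D4.Oct Vale.Agent.P011.E6

variable {k L E : Type} [Field k] [NumberField k] [Field L] [NumberField L] [Field E]
  [Algebra k L] [Algebra k E] [Algebra L E]
  [IsScalarTower k L E] [NeZero (2 : E)] {ρ σ : E ≃ₐ[k] E} {ρL : L ≃ₐ[k] L} {α : E}
  {a b c : kˣ} {q : Lˣ}

/-- **The parts.** -/
theorem partB (H : Hy ρ σ ρL α a b c q)
    (hX : ∀ w : L →+* ℝ, w (algebraMap k L a) < 0 →
      w (algebraMap k L b) < 0 ∧ w (algebraMap k L c) < 0)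
    {b' c' : kˣ} {j l : Oct a b c} (h : Trip a b' c' gi j l) {D : k}
    (hD : GoodD a b q D) (hD' : GoodD a b' q D) {x y : L} (κ : Lˣ)
    (hκ : (κ : L) = x ^ 2 - algebraMap k L D * y ^ 2) :
    ∃ w w' : AT ρ σ α a b c q, w ∈ stab0 ρ σ α a b c q ∧ w' ∈ stab ρ σ α q h ∧
      IsKap ρ w.1 κ ∧ IsKap ρ w'.1 κ ∧ IsNB ρ σ α a b c q (w * w'⁻¹) := by
  by_cases hns : ∀ r : k, D ≠ a * r ^ 2
  swap
  · push Not at hns
    obtain ⟨r, rfl⟩ := hns
    exact Part.trivB H h κ hκ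
  have := KCx.numE H
  obtain ⟨hD0, ⟨w0, hw0, hw0'⟩, -, ⟨w1, hw1, hw1'⟩, hsgn⟩ := hD
  obtain ⟨-, ⟨w2, hw2, hw2'⟩, -, -, -⟩ := hD'
  have hns' := Part.nsq H hD0 hw0 hw0' hns
  obtain ⟨E1, O, _, _, _, _, _, _, _, _, _, _, _, _, _, _, _, _, ρ1, σ1, α1, ρ', σ', τ', a1, b1,
    c1, q1, u, φ, X⟩ := exists_kcx H hD0 hsgn hns' hw0 hw0' hw1 hw1'
  -- the singular elements near the standard one
  have h1 := near_gen (P := ⊤) X.H1 (fun _ _ => Subgroup.mem_top _)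
  have h2 : ∀ᶠ v in nh {W : E1 →+* ℂ | W.comp (algebraMap k E1) ∈ Part.Sk k L a}
      (ep α1 * gl : OctL E1 a1 b1 c1), Pt ρ1 v → PPP ⊤ ρ1 σ1 α1 q1 v := by
    rw [oup_gl] at h1
    exact h1.filter_mono (Part.nh_mono (Part.Bd_sub X.H1 (by rw [X.ha1]; exact hsgn)) _)
  have hne : (Part.S k L a).Nonempty := by
    obtain ⟨w, hw, -⟩ := H.hcp
    exact ⟨w.comp (algebraMap k L), hw, w, rfl⟩
  obtain ⟨ε, hε, h3⟩ := X.sing_near H hns' hw0 hw0' (Part.Sk_finite a)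
    (by
      obtain ⟨τ, hτ⟩ := hne
      exact ⟨_, τ, hτ, rfl⟩) h2
  -- the triple near the standard one
  obtain ⟨f, c'', l'', h'', w'', hf, hw, hww, hnear⟩ := H370.exists_trip_near H.hdiv
    (Part.S k L a)
    (fun τ hτ => by
      obtain ⟨hτ, w, rfl⟩ := hτ
      exact ⟨hτ, hX w hτ⟩) hne h hw0 hw0' hns hw2 hw2' hε
  obtain ⟨v, hv1, hv2, hvt⟩ := h3 h'' hw hww
    (by
      rintro τ ⟨τ', hτ', rfl⟩
      rw [H370.on_ofReal]
      exact (hnear τ' hτ').1.le)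
    (by
      rintro τ ⟨τ', hτ', rfl⟩
      rw [H370.on_ofReal]
      exact (hnear τ' hτ').2.le)
  obtain ⟨y', hy', t, ht, hyt⟩ := hv1 hv2
  obtain ⟨b2, c2, j1, l1, h4, hy1⟩ := X.z5_y h'' hvt ht hyt
  -- the parts
  exact Part.moveB H h h'' (H370.extE_mem_RsB H hf) (H370.tQ_conj_mul hf h h'')
    (Part.core1B X (fun h z hz hk => stab_NB X.H1 h hz (κ := 1)
        (by rw [← hk]; exact isKap_kap _) (Subgroup.one_mem _)) h'' (stabsP_le hy') hy1 κ hκ)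

end Vale.Agent.P011.D4X
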